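import Vale.Agent.P287.MathlibUsed

namespace Vale.Agent.P287

open MvPolynomial

/-- `f` is the equation of a smooth cubic hypersurface of `P^5` over the complex numbers. -/
def IsSmoothCubic (f : MvPolynomial (Fin 6) ℂ) : Prop :=
  f.IsHomogeneous 3 ∧ ∀ x : Fin 6 → ℂ, x ≠ 0 → ∃ i, eval x (pderiv i f) ≠ 0

/-- `W` is (the linear subspace of `ℂ^6` of) a plane of `P^5` contained in `{f = 0}`. -/
def IsPlane (f : MvPolynomial (Fin 6) ℂ) (W : Submodule ℂ (Fin 6 → ℂ)) : Prop :=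
  Module.finrank ℂ W = 3 ∧ ∀ x ∈ W, eval x f = 0

/-- The integral hypersurface `{f = 0}` of `P^5` is birational to `P^4`: there are rational maps
`φ : P^4 ⇢ {f = 0}` and `ψ : {f = 0} ⇢ P^4`, given by homogeneous polynomials, inverse to each
other. -/
def IsRational (f : MvPolynomial (Fin 6) ℂ) : Prop :=
  ∃ (a b : ℕ) (φ : Fin 6 → MvPolynomial (Fin 5) ℂ) (ψ : Fin 5 → MvPolynomial (Fin 6) ℂ)
    (g : MvPolynomial (Fin 5) ℂ) (h : MvPolynomial (Fin 6) ℂ),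
    (∀ i, (φ i).IsHomogeneous a) ∧ (∀ j, (ψ j).IsHomogeneous b) ∧
    aeval φ f = 0 ∧ g ≠ 0 ∧ ¬ f ∣ h ∧
    (∀ j, aeval φ (ψ j) = g * X j) ∧ (∀ i, f ∣ aeval ψ (φ i) - h * X i)

end Vale.Agent.P287
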