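import Mathlib.Algebra.GroupWithZero.Action.Pointwise.Finset
import Mathlib.Algebra.Module.StablyFree.Basic
import Mathlib.Algebra.Module.Submodule.Union
import Mathlib.Algebra.MvPolynomial.Funext
import Mathlib.Algebra.Order.Chebyshev
import Mathlib.Algebra.Order.Ring.Star
import Mathlib.Algebra.Ring.Action.Pointwise.Finset
import Mathlib.Analysis.CStarAlgebra.Classes
import Mathlib.Analysis.Complex.Polynomial.Basic
import Mathlib.Data.Finite.Vector
import Mathlib.Data.Int.Star
import Mathlib.Data.Sym.Card
import Mathlib.LinearAlgebra.Eigenspace.Triangularizable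
import Mathlib.LinearAlgebra.Eigenspace.Zero
import Mathlib.LinearAlgebra.Matrix.FiniteDimensional
import Mathlib.Order.CompletePartialOrder
import Mathlib.RingTheory.Derivation.Lie
import Mathlib.RingTheory.Etale.Weakly
import Mathlib.RingTheory.Finiteness.ModuleFinitePresentation
import Mathlib.RingTheory.Flat.TorsionFree
import Mathlib.RingTheory.MvPolynomial.EulerIdentity
import Mathlib.RingTheory.MvPolynomial.IrreducibleQuadratic
import Mathlib.RingTheory.PicardGroup
import Mathlib.RingTheory.RegularLocalRing.Defs
import Mathlib.RingTheory.SimpleRing.Principal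
import Mathlib.RingTheory.TotallySplit
import Mathlib.Tactic

/-! The part of Mathlib that the development of this folder uses. -/
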